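import Vale.Agent.P160.Atom

/-! P160: the exponential rate of singularity witnessed by a structured kernel vector (repeated
absolute values, or Littlewood-Offord atom at least `exp (- √n / 1024)`) is exactly one half. -/

namespace Vale.Agent.Results.P160.StructuredKernelRate

open Filter Vale.Agent.P160

theorem result :
    Tendsto (fun n : ℕ => prob n (HasStructuredKernel n) ^ (1 / (n : ℝ))) atTop (nhds (1 / 2))
      ∧ (∀ᶠ n : ℕ in atTop, (1 / 2 : ℝ) ^ n ≤ prob n (HasStructuredKernel n))
      ∧ (∀ a : ℝ, 1 / 2 < a →
          ∀ᶠ n : ℕ in atTop, prob n (HasStructuredKernel n) ≤ a ^ n)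
      ∧ (∀ a : ℝ, 1 / 2 < a → ∀ᶠ n : ℕ in atTop,
          prob n (fun A => A.det = 0) ≤ a ^ n
            + prob n (fun A => A.det = 0 ∧ ∀ v : Fin n → ℝ, v ≠ 0 → A.mulVec v = 0 →
                (Nat.card {j : Fin n // v j = 0} : ℝ) < 12 * (n : ℝ) / Real.log n ∧
                (n : ℝ) - 60 * (n : ℝ) / Real.log n
                  < (Set.ncard (Set.range fun j => |v j|) : ℝ) ∧
                ∀ x : ℝ,
                  (Nat.card {ε : Fin n → Bool //
                      ∑ j, (if ε j then v j else - v j) = x} : ℝ) / 2 ^ n
                    < Real.exp (- Real.sqrt n / 1024))) :=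
  ⟨structured_rate, structured_lower, fun _ ha => structured_upper ha,
    fun _ ha => singular_reduction_structured ha⟩

end Vale.Agent.Results.P160.StructuredKernelRate
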